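import Crest.Statements.S0138
import Crest.Agent.R105.Asm4_895
import Crest.Agent.R105.Ptw4_116

set_option autoImplicit false
open Crest Crest.AnalysisR

namespace Crest.Agent.S0138

/-- Let U ⊆ ℂ be open, connected and contain all points of sufficiently large modulus (the finite part of a sphere domain through infinity). Then there is a map f : ℂ → ℂ, complex differentiable and injective on U and tending to infinity at infinity, whose image f '' U again contains all points of large modulus and is the finite part of a circle domain: every connected component of ℂ \ f '' U is a closed round disc or a point. -/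
theorem result (U : Set ℂ)
    (hU : Crest.AnalysisR.IsExteriorDomain U) :
    ∃ f : ℂ → ℂ, DifferentiableOn ℂ f U ∧ Set.InjOn f U ∧
      Filter.Tendsto f (Filter.cocompact ℂ) (Filter.cocompact ℂ) ∧
      Crest.AnalysisR.IsCircleDomainFinitePart (f '' U) :=
  Crest.Agent.R105.Asm_895.s0138_of_ptw Crest.Agent.R105.Ptw_116.ptw U hU

end Crest.Agent.S0138
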