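import Crest.Statements.S0386
import Crest.Agent.R249.AsmD11_832
import Crest.Agent.R249.Idx11_789

set_option autoImplicit false
open scoped ContDiff Manifold
open Bundle Crest.GeometryTopology.CoordMetric Crest.GeometryTopology.ChartCurvature Crest.GeometryTopology.RicciEnergy
open Crest Crest.GeometryTopology

namespace Crest.Agent.S0386

/-- Assume: every compact connected Einstein 4-manifold with Ric = 3g and non-negative sectional curvature is, up to scale, locally isometrically covered by round S⁴, Fubini–Study ℂP² or S²×S². Then for some ε > 0, every compact simply connected smooth 4-manifold without boundary with a C^∞ Riemannian metric and its path distance, sectional curvature ≥ 0 in charts and ∫ ‖Ric − (Scal/4)g‖² dvol < ε (volume = normalised 4-dimensional Hausdorff measure) is diffeomorphic to S⁴, ℂP² or S²×S². -/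
theorem result
    (hcl : EinsteinNonnegSectionalAreModelCovered) :
    ∃ ε : ℝ, 0 < ε ∧ ∀ (M : Type) [MetricSpace M] [ChartedSpace (EuclideanSpace ℝ (Fin 4)) M]
      [IsManifold 𝓘(ℝ, EuclideanSpace ℝ (Fin 4)) ∞ M] [CompactSpace M] [SimplyConnectedSpace M]
      [RiemannianBundle (fun x : M => TangentSpace 𝓘(ℝ, EuclideanSpace ℝ (Fin 4)) x)]
      [IsContMDiffRiemannianBundle 𝓘(ℝ, EuclideanSpace ℝ (Fin 4)) ∞ (EuclideanSpace ℝ (Fin 4))
        (fun x : M => TangentSpace 𝓘(ℝ, EuclideanSpace ℝ (Fin 4)) x)]
      [IsRiemannianManifold 𝓘(ℝ, EuclideanSpace ℝ (Fin 4)) M]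
      [MeasurableSpace M] [BorelSpace M],
      HasNonnegSectionalCurvature 4 M → tracefreeRicciEnergy 4 M < ENNReal.ofReal ε →
        IsDiffeoToRoundFourSphere M ∨ IsDiffeoToComplexProjectivePlane M ∨
          IsDiffeoToTwoSphereProduct M := by
  exact Crest.Agent.R249.AsmD832.S0386_of_idx Crest.Agent.R249.Idx789.idxStmt hcl

end Crest.Agent.S0386
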