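import Crest.Statements.S0398
import Crest.Agent.R260.MainY_803
import Crest.Agent.R260.AsmQ_803

set_option autoImplicit false
open scoped Manifold ContDiff
open Crest Crest.AlgGeometry

namespace Crest.Agent.S0398

/-- Let M be a compact connected smooth 4m-manifold, m ≥ 2, with a chartwise Riemannian metric (a smooth positive definite matrix field per chart, transforming as a bilinear form), a parallel orthogonal quaternionic structure (three smooth endomorphism fields per chart with the quaternion relations, preserving the metric, with parallel span agreeing across charts: holonomy in Sp(m)·Sp(1)) and positive scalar curvature. Then the covariant derivative of the Riemann tensor vanishes in every chart. -/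
theorem result
    (m : ℕ) (hm : 2 ≤ m) (M : Type) [TopologicalSpace M] [T2Space M] [CompactSpace M]
    [ConnectedSpace M] [ChartedSpace (EuclideanSpace ℝ (Fin (4 * m))) M]
    [IsManifold 𝓘(ℝ, EuclideanSpace ℝ (Fin (4 * m))) ∞ M]
    (G : Crest.GeometryTopology.ChartRiem.ChartMetric (4 * m) M)
    (Q : Crest.GeometryTopology.ChartRiem.QuaternionicStructure (4 * m) M G)
    (hpos : ∀ e ∈ atlas (EuclideanSpace ℝ (Fin (4 * m))) M, ∀ x ∈ e.target,
      0 < Crest.GeometryTopology.ChartRiem.scalarCurv (G.g e) x) :
    ∀ e ∈ atlas (EuclideanSpace ℝ (Fin (4 * m))) M, ∀ x ∈ e.target,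
      ∀ a l i j k : Fin (4 * m),
        Crest.GeometryTopology.ChartRiem.covDerivRiemann (G.g e) x a l i j k = 0 := by
  exact Crest.Agent.R260.MainC_803.s0398_of_ag Crest.Agent.R260.Asm_803.agCore m hm M G Q hpos

end Crest.Agent.S0398
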