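import Crest.Statements.S0416
import Crest.Agent.R273.Red_333
import Crest.Agent.R273.AsmE_534
import Crest.Agent.R273.DualB_127
import Crest.Agent.R273.YauFin_635
import Crest.Agent.R273.TorTop_422
import Crest.Agent.R273.PartAFin_73

set_option autoImplicit false
open scoped Manifold ContDiff
open Crest.AlgGeometry.Anticanonical
open Crest Crest.AlgGeometry

namespace Crest.Agent.S0416

/-- Let X be a compact connected complex manifold of dimension n (Hausdorff, charted over complex n-space, complex analytic changes of charts) that admits an injective holomorphic immersion into some complex projective space, and suppose the anticanonical bundle of X carries a smooth Hermitian metric with semipositive curvature, recorded chartwise as in Def_AnticanonicalChart. Then for some m > 0 the m-th power of the anticanonical bundle has a holomorphic section that is not identically zero. -/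
theorem result
    (n : ℕ) (X : Type*) [TopologicalSpace X] [T2Space X] [CompactSpace X] [ConnectedSpace X]
    [ChartedSpace (Cn n) X] [IsManifold 𝓘(ℂ, Cn n) ω X]
    (hproj : IsProjective n X) (h : AnticanonicalMetric n X) (hpos : h.IsSemipositive) :
    ∃ m : ℕ, 0 < m ∧ ∃ s : PluriAnticanonicalForm n X m,
      ∃ e ∈ atlas (Cn n) X, ∃ x ∈ e.source, s.coeff e (e x) ≠ 0 := by
  exact Crest.Agent.R273.Red_333.of_main
    (Crest.Agent.R273.AsmE_534.main_of Crest.Agent.R273.YauFin_635.yau Crest.Agent.R273.Max127.nf
      Crest.Agent.R273.PartAFin_73.partA Crest.Agent.R273.TorTop_422.tor) n X hproj h hpos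

end Crest.Agent.S0416
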