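import Crest.Statements.S0424
import Crest.Agent.R281.DicO_273
import Crest.Agent.R281.Sk9_474

set_option autoImplicit false
open scoped Manifold ContDiff
open Crest.CxGeometry
open Crest Crest.AlgGeometry

namespace Crest.Agent.S0424

/-- Let X be a compact irreducible holomorphic symplectic manifold of complex dimension 2n, n ≥ 1, and L a holomorphic line bundle on X which is nef, has non-zero real first Chern class, and is isotropic: for every holomorphic symplectic form σ on X, every Hermitian metric on L and every chart partition of X, the Beauville–Bogomolov–Fujiki expression of the Chern form of the metric with respect to σ is zero. Then L is semiample: some positive power of L is generated by its global sections. -/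
theorem result
    {n : ℕ} {X : Type*} [TopologicalSpace X] [ChartedSpace (Cn (2 * n)) X]
    [IsManifold 𝓘(ℂ, Cn (2 * n)) ω X] [CompactSpace X] [T2Space X]
    (hn : 1 ≤ n) (hX : IsIrreducibleHolSymplectic (2 * n) X)
    (L : HolLineBundle (2 * n) X) (hnef : L.IsNef) (hc1 : L.ChernClassNeZero)
    (hiso : ∀ σ : Form (2 * n) X 2, IsHolSymplectic σ →
      ∀ (h : L.HermMetric) (P : ChartPartition (2 * n) X), bbfQuadratic P σ h.chernForm = 0) :
    L.IsSemiample := by
  exact Crest.Agent.R281.DicO_273.of_main Crest.Agent.R281.Sk_474.main281 hn hX L hnef hc1 hiso

end Crest.Agent.S0424
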